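import Crest.Agent.N250.St.Defs2

-- ▼ part N250/St/Box
section

/-!
# Row 250, block B2 (helper47): Stokes formula on rectangles and the oscillation lemma.
-/

set_option autoImplicit false
open Set Filter Topology MeasureTheory intervalIntegral

noncomputable section

namespace Crest.Agent.N250.St

/-- the test function -/
def psi (e : ℝ) (w : ℂ) : ℂ := Complex.exp (w + (1 / 4 - e : ℝ) * Complex.exp w)

theorem norm_psi (e : ℝ) (w : ℂ) :
    ‖psi e w‖ = Real.exp w.re * Real.exp ((1 / 4 - e) * (Real.exp w.re * Real.cos w.im)) := by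
  rw [psi, Complex.norm_exp, Complex.add_re, Complex.re_ofReal_mul, Complex.exp_re, Real.exp_add]

theorem cos_le_chi {y : ℝ} (hy : |y| ≤ 1) : Real.cos y + y ^ 2 / 16 ≤ chi y := by
  have h1 := (abs_le.1 (Real.cos_bound hy)).2
  have h2 : |y| ^ 4 ≤ y ^ 2 := by
    rw [← sq_abs y]
    exact pow_le_pow_of_le_one (abs_nonneg _) hy (by norm_num)
  unfold chi
  nlinarith [sq_nonneg y]

theorem half_le_cos {y : ℝ} (hy : |y| ≤ 1) : 1 / 2 ≤ Real.cos y := by
  have h1 := Real.one_sub_sq_div_two_le_cos (x := y)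
  have h2 : y ^ 2 ≤ 1 := by rw [← sq_abs y]; exact pow_le_one₀ (abs_nonneg _) hy
  linarith

theorem chi_le_one (y : ℝ) : chi y ≤ 1 := by unfold chi; nlinarith [sq_nonneg y]

theorem int_ee {κ : ℝ} (hκ : κ ≠ 0) (a b : ℝ) :
    ∫ x in a..b, Real.exp x * Real.exp (-κ * Real.exp x) =
      (Real.exp (-κ * Real.exp a) - Real.exp (-κ * Real.exp b)) / κ := by
  have h : ∀ x ∈ uIcc a b, HasDerivAt (fun x => -Real.exp (-κ * Real.exp x) / κ)
      (Real.exp x * Real.exp (-κ * Real.exp x)) x := fun x _ => by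
    refine ((((Real.hasDerivAt_exp x).const_mul (-κ)).exp.neg).div_const κ).congr_deriv ?_
    field_simp
  rw [integral_eq_sub_of_hasDerivAt h (Continuous.intervalIntegrable (by fun_prop) _ _)]
  ring

theorem int_ee_le {κ : ℝ} (hκ : 0 < κ) (a b : ℝ) :
    ∫ x in a..b, Real.exp x * Real.exp (-κ * Real.exp x) ≤ 1 / κ := by
  rw [int_ee hκ.ne']
  refine div_le_div_of_nonneg_right ?_ hκ.le
  have : Real.exp (-κ * Real.exp a) ≤ 1 :=
    Real.exp_le_one_iff.2 (by nlinarith [Real.exp_pos a])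
  linarith [Real.exp_pos (-κ * Real.exp b)]

/-- the oscillation lemma -/
theorem osc {β ε a b : ℝ} (hβ : β ≠ 0) (hε : 0 < ε) (hab : a ≤ b) :
    ε * ‖∫ x in a..b, ((Real.exp x * Real.exp (-ε * Real.exp x) : ℝ) : ℂ) *
      Complex.exp (-(β * Real.exp (x / 2) : ℝ) * Complex.I)‖ ≤
        2 / |β| * (4 * √ε + Real.exp (-a / 2)) := by
  set E : ℝ → ℂ := fun x => Complex.exp (-(β * Real.exp (x / 2) : ℝ) * Complex.I) with hE
  set g : ℝ → ℝ := fun x => Real.exp (x / 2) * Real.exp (-ε * Real.exp x) with hg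
  set g' : ℝ → ℝ := fun x => (1 / 2 - ε * Real.exp x) * g x with hg'
  have hEn : ∀ x, ‖E x‖ = 1 := fun x => by
    rw [hE]; simp only; rw [← Complex.ofReal_neg, Complex.norm_exp_ofReal_mul_I]
  have h2 : ∀ x, Real.exp x = Real.exp (x / 2) * Real.exp (x / 2) := fun x => by
    rw [← Real.exp_add, add_halves]
  have hx2 : ∀ x, HasDerivAt (fun x => Real.exp (x / 2)) (Real.exp (x / 2) * (1 / 2)) x :=
    fun x => ((hasDerivAt_id x).div_const 2).exp
  have hgd : ∀ x, HasDerivAt g (g' x) x := fun x => by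
    refine ((hx2 x).mul ((Real.hasDerivAt_exp x).const_mul (-ε)).exp).congr_deriv ?_
    simp only [hg', hg]; ring
  have hEd : ∀ x, HasDerivAt E (E x * (-(β * (Real.exp (x / 2) * (1 / 2)) : ℝ) * Complex.I)) x :=
    fun x => ((((hx2 x).const_mul β).ofReal_comp.neg).mul_const Complex.I).cexp
  have hβ' : (β : ℂ) ≠ 0 := by exact_mod_cast hβ
  have hB : ∀ x ∈ uIcc a b, HasDerivAt (fun x => 2 * Complex.I / β * ((g x : ℂ) * E x))
      (((Real.exp x * Real.exp (-ε * Real.exp x) : ℝ) : ℂ) * E x +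
        2 * Complex.I / β * ((g' x : ℂ) * E x)) x := fun x _ => by
    refine (((hgd x).ofReal_comp.mul (hEd x)).const_mul (2 * Complex.I / β)).congr_deriv ?_
    have h3 : ((Real.exp x * Real.exp (-ε * Real.exp x) : ℝ) : ℂ) =
        (g x : ℂ) * (Real.exp (x / 2) : ℝ) := by
      rw [← Complex.ofReal_mul]; congr 1; simp only [hg]; nth_rewrite 1 [h2 x]; ring
    rw [h3]
    simp only [Complex.ofReal_mul, Complex.ofReal_div, Complex.ofReal_one, Complex.ofReal_ofNat]
    field_simp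
    linear_combination (-(g x : ℂ) * (Real.exp (x / 2) : ℝ) * E x * β) * Complex.I_mul_I
  have hEc : Continuous E := by rw [hE]; fun_prop
  have hgc : Continuous g' := by simp only [hg', hg]; fun_prop
  have i1 : IntervalIntegrable (fun x => ((Real.exp x * Real.exp (-ε * Real.exp x) : ℝ) : ℂ) * E x)
      volume a b := Continuous.intervalIntegrable (by fun_prop) _ _
  have i2 : IntervalIntegrable (fun x => 2 * Complex.I / β * ((g' x : ℂ) * E x)) volume a b :=
    Continuous.intervalIntegrable (by fun_prop) _ _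
  have h4 := integral_eq_sub_of_hasDerivAt hB (i1.add i2)
  rw [integral_add i1 i2] at h4
  have hs : 0 < √ε := Real.sqrt_pos.2 hε
  have hss : √ε * √ε = ε := Real.mul_self_sqrt hε.le
  have hK : ‖2 * Complex.I / β‖ = 2 / |β| := by simp
  have hK0 : 0 ≤ 2 / |β| := by positivity
  have hu : ∀ x, √ε * Real.exp (x / 2) ≤ Real.exp (ε / 2 * Real.exp x) := fun x => by
    have h5 := Real.add_one_le_exp (ε / 2 * Real.exp x)
    have h6 : ε / 2 * Real.exp x = (√ε * Real.exp (x / 2)) ^ 2 / 2 := by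
      rw [mul_pow, Real.sq_sqrt hε.le, pow_two, ← h2]; ring
    nlinarith [sq_nonneg (√ε * Real.exp (x / 2) - 1)]
  have hsp : ∀ x, Real.exp (-ε * Real.exp x) * Real.exp (ε / 2 * Real.exp x) =
      Real.exp (-(ε / 2) * Real.exp x) := fun x => by rw [← Real.exp_add]; ring_nf
  have hle1 : ∀ x, Real.exp (-(ε / 2) * Real.exp x) ≤ 1 := fun x =>
    Real.exp_le_one_iff.2 (by nlinarith [Real.exp_pos x])
  have hg1 : ∀ x, √ε * g x ≤ Real.exp (-(ε / 2) * Real.exp x) := fun x => by
    rw [← hsp]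
    have := mul_le_mul_of_nonneg_left (hu x) (Real.exp_pos (-ε * Real.exp x)).le
    simp only [hg]; linarith
  have hg0 : ∀ x, 0 < g x := fun x => by simp only [hg]; positivity
  have hBn : ∀ x, ε * ‖2 * Complex.I / β * ((g x : ℂ) * E x)‖ ≤ 2 / |β| * √ε := fun x => by
    rw [norm_mul, hK, norm_mul, hEn, mul_one, Complex.norm_real, Real.norm_of_nonneg (hg0 x).le]
    have := mul_le_mul_of_nonneg_left ((hg1 x).trans (hle1 x)) (mul_nonneg hK0 hs.le)
    have e : ε * (2 / |β| * g x) = 2 / |β| * √ε * (√ε * g x) := by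
      nth_rewrite 1 [← hss]; ring
    linarith
  have h7 : ‖∫ x in a..b, 2 * Complex.I / β * ((g' x : ℂ) * E x)‖ ≤
      ∫ x in a..b, 2 / |β| * (Real.exp (-a / 2) / 2 + √ε) *
        (Real.exp x * Real.exp (-(ε / 2) * Real.exp x)) := by
    refine norm_integral_le_of_norm_le hab (Eventually.of_forall fun x hx => ?_)
      (Continuous.intervalIntegrable (by fun_prop) _ _)
    rw [norm_mul, hK, norm_mul, hEn, mul_one, Complex.norm_real, Real.norm_eq_abs, mul_assoc]
    refine mul_le_mul_of_nonneg_left ?_ hK0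
    have b1 : g x ≤ Real.exp (-a / 2) * (Real.exp x * Real.exp (-(ε / 2) * Real.exp x)) := by
      have c1 : Real.exp (x / 2) ≤ Real.exp (-a / 2) * Real.exp x := by
        rw [← Real.exp_add]; exact Real.exp_le_exp.2 (by linarith [hx.1])
      have c2 : Real.exp (-ε * Real.exp x) ≤ Real.exp (-(ε / 2) * Real.exp x) :=
        Real.exp_le_exp.2 (by nlinarith [Real.exp_pos x])
      rw [← mul_assoc]
      exact mul_le_mul c1 c2 (Real.exp_pos _).le (by positivity)
    have b2 : ε * Real.exp x * g x ≤ √ε * (Real.exp x * Real.exp (-(ε / 2) * Real.exp x)) := by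
      have := mul_le_mul_of_nonneg_left (hg1 x) (mul_pos hs (Real.exp_pos x)).le
      have e : ε * Real.exp x * g x = √ε * Real.exp x * (√ε * g x) := by
        nth_rewrite 1 [← hss]; ring
      linarith
    have b3 : 0 ≤ ε * Real.exp x * g x := by have := hg0 x; positivity
    rw [abs_le]
    simp only [hg']
    constructor <;> nlinarith [hg0 x]
  rw [intervalIntegral.integral_const_mul (2 / |β| * (Real.exp (-a / 2) / 2 + √ε))] at h7
  have h8 := mul_le_mul_of_nonneg_left (int_ee_le (half_pos hε) a b)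
    (show 0 ≤ 2 / |β| * (Real.exp (-a / 2) / 2 + √ε) by positivity)
  have h9 := mul_le_mul_of_nonneg_left (le_trans h7 h8) hε.le
  have h10 : ε * (2 / |β| * (Real.exp (-a / 2) / 2 + √ε) * (1 / (ε / 2))) =
      2 / |β| * (Real.exp (-a / 2) + 2 * √ε) := by field_simp
  rw [eq_sub_of_add_eq h4]
  have h11 := mul_le_mul_of_nonneg_left ((norm_sub_le _ _).trans (add_le_add (norm_sub_le
    (2 * Complex.I / β * ((g b : ℂ) * E b)) (2 * Complex.I / β * ((g a : ℂ) * E a)))
    (le_refl ‖∫ x in a..b, 2 * Complex.I / β * ((g' x : ℂ) * E x)‖))) hε.le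
  linarith [hBn a, hBn b]

/-- Stokes: the area integral of `(∂_x + i ∂_y) G ψ_ε` is bounded uniformly in `ε` -/
theorem box {G D : ℂ → ℂ} {G' : ℂ → ℂ →L[ℝ] ℂ} {x₀ θ : ℝ} (h0 : 0 < θ) (h1 : θ ≤ 1)
    (hd : ∀ w ∈ QQ x₀ θ, HasFDerivAt G (G' w) w)
    (hD : ∀ w ∈ QQ x₀ θ, G' w 1 + Complex.I * G' w Complex.I = D w)
    (hc : ContinuousOn D (QQ x₀ θ))
    (hr : ∀ ε, 0 < ε → ∃ C, ∀ w ∈ QQ x₀ θ, ‖G w‖ ≤ C * Real.exp (-(1 / 4 - ε) * hh w))
    {a : ℝ} (ha : x₀ ≤ a) : ∃ C, ∀ ε, 0 < ε → ε ≤ 1 / 4 → ∀ᶠ b : ℝ in atTop,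
      ‖∫ x : ℝ in a..b, ∫ y : ℝ in (-θ)..θ,
        D (x + y * Complex.I) * psi ε (x + y * Complex.I)‖ ≤ C := by
  have hr' : ∀ ε, 0 < ε → ∃ C, 0 ≤ C ∧
      ∀ w ∈ QQ x₀ θ, ‖G w‖ ≤ C * Real.exp (-(1 / 4 - ε) * hh w) := fun ε hε => by
    obtain ⟨C, hC⟩ := hr ε hε
    exact ⟨|C|, abs_nonneg _, fun w hw =>
      (hC w hw).trans (mul_le_mul_of_nonneg_right (le_abs_self _) (Real.exp_pos _).le)⟩
  set κ := θ ^ 2 / 128 with hκ
  have hκ0 : 0 < κ := by positivity
  obtain ⟨C₁, h10, hC₁⟩ := hr' κ hκ0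
  obtain ⟨C₂, h20, hC₂⟩ := hr' (1 / 4) (by norm_num)
  have hmem : ∀ x y : ℝ, a ≤ x → |y| ≤ θ → (x + y * Complex.I : ℂ) ∈ QQ x₀ θ := fun x y hx hy =>
    ⟨by simpa using ha.trans hx, by simpa using hy⟩
  have hy : ∀ y ∈ uIoc (-θ) θ, |y| ≤ θ := fun y hy => by
    rw [uIoc_of_le (by linarith)] at hy
    exact abs_le.2 ⟨hy.1.le, hy.2⟩
  refine ⟨2 * (C₁ * (1 / κ)) + 1 + C₂ * (Real.exp a * Real.exp (Real.exp a / 4)) * |θ - -θ|,
    fun ε hε hε4 => ?_⟩
  obtain ⟨C₃, h30, hC₃⟩ := hr' (ε / 2) (half_pos hε)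
  have hlim : Tendsto (fun b : ℝ => C₃ * (Real.exp b * Real.exp (-(ε / 4) * Real.exp b)) *
      |θ - -θ|) atTop (𝓝 0) := by
    have := (Real.tendsto_pow_mul_exp_neg_atTop_nhds_zero 1).comp
      (Real.tendsto_exp_atTop.const_mul_atTop (show 0 < ε / 4 by linarith))
    have h2 := (this.const_mul (C₃ * (4 / ε))).mul_const |θ - -θ|
    simp only [mul_zero, zero_mul] at h2
    refine h2.congr fun b => ?_
    simp only [Function.comp, pow_one, neg_mul]
    field_simp
  filter_upwards [eventually_ge_atTop a, hlim.eventually_le_const one_pos] with b hb hb1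
  set f : ℂ → ℂ := fun w => G w * psi ε w with hf
  have hψ : ∀ w, HasDerivAt (psi ε) (psi ε w * (1 + (1 / 4 - ε : ℝ) * Complex.exp w)) w :=
    fun w => ((hasDerivAt_id w).add ((Complex.hasDerivAt_exp w).const_mul _)).cexp
  set f' : ℂ → ℂ →L[ℝ] ℂ := fun w => G w • (ContinuousLinearMap.toSpanSingleton ℂ
    (psi ε w * (1 + (1 / 4 - ε : ℝ) * Complex.exp w))).restrictScalars ℝ + psi ε w • G' w with hf'
  have hfd : ∀ w ∈ QQ x₀ θ, HasFDerivAt f (f' w) w := fun w hw =>
    (hd w hw).mul ((hψ w).hasFDerivAt.restrictScalars ℝ)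
  have hfD : ∀ w ∈ QQ x₀ θ, Complex.I • f' w 1 - f' w Complex.I =
      Complex.I * (D w * psi ε w) := fun w hw => by
    rw [← hD w hw]
    simp only [hf', add_apply, smul_apply,
      ContinuousLinearMap.coe_restrictScalars', ContinuousLinearMap.toSpanSingleton_apply,
      smul_eq_mul]
    linear_combination (-psi ε w * G' w Complex.I) * Complex.I_mul_I
  have hsub : (uIcc a b ×ℂ uIcc (-θ) θ) ⊆ QQ x₀ θ := fun w hw => by
    rw [uIcc_of_le hb, uIcc_of_le (by linarith)] at hw
    exact ⟨ha.trans hw.1.1, abs_le.2 hw.2⟩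
  have hψc : Continuous (psi ε) := continuous_iff_continuousAt.2 fun w => (hψ w).continuousAt
  have hS := Complex.integral_boundary_rect_of_hasFDerivAt_real_off_countable f f'
    ⟨a, -θ⟩ ⟨b, θ⟩ ∅ countable_empty
    (fun w hw => (hfd w (hsub hw)).continuousAt.continuousWithinAt)
    (fun w hw => hfd w (hsub ⟨Ioo_subset_Icc_self hw.1.1, Ioo_subset_Icc_self hw.1.2⟩))
    (by
      have hK : IsCompact (uIcc a b ×ℂ uIcc (-θ) θ) := isCompact_uIcc.reProdIm isCompact_uIcc
      refine IntegrableOn.congr_fun (f := fun w => Complex.I * (D w * psi ε w)) ?_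
        (fun w hw => (hfD w (hsub hw)).symm) hK.measurableSet
      exact (continuousOn_const.mul ((hc.mono hsub).mul hψc.continuousOn)).integrableOn_compact hK)
  have hR : (∫ x : ℝ in a..b, ∫ y : ℝ in (-θ)..θ, Complex.I • f' (x + y * Complex.I) 1 -
      f' (x + y * Complex.I) Complex.I) = Complex.I * ∫ x : ℝ in a..b, ∫ y : ℝ in (-θ)..θ,
        D (x + y * Complex.I) * psi ε (x + y * Complex.I) := by
    rw [← intervalIntegral.integral_const_mul]
    refine integral_congr fun x hx => ?_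
    rw [← intervalIntegral.integral_const_mul]
    refine integral_congr fun y hy => hfD _ (hsub ⟨by simpa using hx, by simpa using hy⟩)
  simp only at hS
  rw [hR] at hS
  have hre : ∀ x y : ℝ, (x + y * Complex.I : ℂ).re = x := fun x y => by simp
  have him : ∀ x y : ℝ, (x + y * Complex.I : ℂ).im = y := fun x y => by simp
  have side : ∀ y : ℝ, |y| = θ → ‖∫ x : ℝ in a..b, f (x + y * Complex.I)‖ ≤ C₁ * (1 / κ) := by
    intro y hyθ
    refine (norm_integral_le_of_norm_le (g := fun x => C₁ * (Real.exp x *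
      Real.exp (-κ * Real.exp x))) hb (Eventually.of_forall fun x hx => ?_)
      (Continuous.intervalIntegrable (by fun_prop) _ _)).trans ?_
    · simp only [hf]
      rw [norm_mul, norm_psi, hre, him]
      refine (mul_le_mul_of_nonneg_right (hC₁ _ (hmem x y hx.1.le hyθ.le))
        (by positivity)).trans ?_
      rw [hh, hre, him, mul_assoc, mul_left_comm (Real.exp _), ← Real.exp_add]
      refine mul_le_mul_of_nonneg_left (mul_le_mul_of_nonneg_left (Real.exp_le_exp.2 ?_)
        (Real.exp_pos _).le) h10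
      have c1 := cos_le_chi (hyθ.le.trans h1)
      have c2 := half_le_cos (hyθ.le.trans h1)
      have c3 := chi_le_one y
      have c4 : y ^ 2 = θ ^ 2 := by rw [← sq_abs y, hyθ]
      have c5 : -(1 / 4 - κ) * chi y + (1 / 4 - ε) * Real.cos y ≤ -κ := by nlinarith
      nlinarith [Real.exp_pos x]
    · rw [intervalIntegral.integral_const_mul]
      exact mul_le_mul_of_nonneg_left (int_ee_le hκ0 a b) h10
  have left : ‖∫ y : ℝ in (-θ)..θ, f (a + y * Complex.I)‖ ≤
      C₂ * (Real.exp a * Real.exp (Real.exp a / 4)) * |θ - -θ| := by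
    refine norm_integral_le_of_norm_le_const fun y hy' => ?_
    simp only [hf]
    rw [norm_mul, norm_psi, hre, him]
    have c1 := hC₂ _ (hmem a y le_rfl (hy y hy'))
    rw [sub_self, neg_zero, zero_mul, Real.exp_zero, mul_one] at c1
    refine mul_le_mul c1 (mul_le_mul_of_nonneg_left (Real.exp_le_exp.2 ?_) (Real.exp_pos _).le)
      (by positivity) h20
    have c2 := half_le_cos ((hy y hy').trans h1)
    have c3 := mul_le_mul_of_nonneg_left (Real.cos_le_one y) (Real.exp_pos a).le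
    have c4 : 0 ≤ ε * (Real.exp a * Real.cos y) := by have := Real.exp_pos a; positivity
    nlinarith
  have right : ‖∫ y : ℝ in (-θ)..θ, f (b + y * Complex.I)‖ ≤
      C₃ * (Real.exp b * Real.exp (-(ε / 4) * Real.exp b)) * |θ - -θ| := by
    refine norm_integral_le_of_norm_le_const fun y hy' => ?_
    simp only [hf]
    rw [norm_mul, norm_psi, hre, him]
    refine (mul_le_mul_of_nonneg_right (hC₃ _ (hmem b y hb (hy y hy'))) (by positivity)).trans ?_
    rw [hh, hre, him, mul_assoc, mul_left_comm (Real.exp _), ← Real.exp_add]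
    refine mul_le_mul_of_nonneg_left (mul_le_mul_of_nonneg_left (Real.exp_le_exp.2 ?_)
      (Real.exp_pos _).le) h30
    have c1 := cos_le_chi ((hy y hy').trans h1)
    have c2 := half_le_cos ((hy y hy').trans h1)
    have c5 : -(1 / 4 - ε / 2) * chi y + (1 / 4 - ε) * Real.cos y ≤ -(ε / 4) := by
      nlinarith [sq_nonneg y]
    nlinarith [Real.exp_pos b]
  have s1 := side (-θ) (by rw [abs_neg, abs_of_pos h0])
  have s2 := side θ (abs_of_pos h0)
  have hn := congrArg norm hS
  rw [norm_mul, Complex.norm_I, one_mul] at hn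
  rw [← hn]
  refine (norm_sub_le _ _).trans ((add_le_add ((norm_add_le _ _).trans
    (add_le_add (norm_sub_le _ _) le_rfl)) le_rfl).trans ?_)
  rw [norm_smul, norm_smul, Complex.norm_I, one_mul, one_mul]
  linarith

end Crest.Agent.N250.St

end
end

-- ▼ part N250/St/Abel

/-!
# Row 250, block B2 (helper47): the Abelian closure of the real-`x` Stokes argument.
-/

set_option autoImplicit false
open Set Filter Topology MeasureTheory intervalIntegral

noncomputable section

namespace Crest.Agent.N250.St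

/-- the weight of the area integral -/
def wt0 (e : ℝ) (w : ℂ) : ℂ :=
  Real.exp w.re * ((chi w.im : ℂ) - (3 / 4 * w.im : ℝ) * Complex.I) * Real.exp (-hh w / 4) *
    Complex.exp (w + (1 / 4 - e : ℝ) * Complex.exp w)

/-- the per-end lemma -/
def InnerS : Prop :=
  ∀ (Φ : ℂ → ℂ) (x₀ θ γ : ℝ) (φ : ℝ → ℂ) (M : ℝ → ℝ), Prof Φ x₀ θ γ φ M → 0 < θ → θ ≤ 1 →
    ∀ η : ℝ, 0 < η → ∀ᶠ p : ℝ × ℝ in atTop ×ˢ 𝓝[>] 0,
      ‖(∫ y : ℝ in (-θ)..θ, wt0 p.2 (p.1 + y * Complex.I) * Φ (p.1 + y * Complex.I)) -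
        (Real.exp p.1 * Real.exp (-p.2 * Real.exp p.1) * Real.exp (-γ ^ 2 / 32) : ℝ) *
          Complex.exp (-((1 / 4 - p.2) * γ * Real.exp (p.1 / 2) : ℝ) * Complex.I) *
            ∫ s : ℝ, Complex.exp ((s / 4 : ℝ) * Complex.I) * φ s‖ ≤
        Real.exp p.1 * (Real.exp (-p.2 * Real.exp p.1) * (∫ s, M s) +
          η * Real.exp (-p.2 * Real.exp p.1 / 2))

theorem cont_inner {F : ℂ → ℂ} {x₀ θ : ℝ} (h0 : 0 < θ) (hF : ContinuousOn F (QQ x₀ θ)) :
    ContinuousOn (fun x : ℝ => ∫ y : ℝ in (-θ)..θ, F (x + y * Complex.I)) (Ici x₀) := by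
  set r : ℝ → ℝ → ℂ := fun x y => (max x x₀ : ℝ) + (max (-θ) (min y θ) : ℝ) * Complex.I with hr
  have h1 : Continuous (Function.uncurry fun x y => F (r x y)) := by
    refine hF.comp_continuous (f := fun p : ℝ × ℝ => r p.1 p.2) (by simp only [hr]; fun_prop)
      fun p => ⟨by simp [hr], ?_⟩
    simp only [hr, Complex.add_im, Complex.ofReal_im, Complex.mul_im, Complex.ofReal_re,
      Complex.I_im, Complex.I_re, mul_one, mul_zero, add_zero, zero_add]
    exact abs_le.2 ⟨le_max_left _ _, max_le (by linarith) (min_le_right _ _)⟩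
  refine (continuous_parametric_intervalIntegral_of_continuous' h1 (-θ) θ).continuousOn.congr
    fun x hx => integral_congr fun y hy => ?_
  rw [uIcc_of_le (by linarith)] at hy
  simp only [hr]
  rw [max_eq_left hx, min_eq_left hy.2, max_eq_right hy.1]

theorem st2_of (hI : InnerS) : ST2Stmt := by
  intro D _ G G' x₀ θ Φ γ φ M h
  classical
  set I : D → ℂ := fun j => ∫ s : ℝ, Complex.exp ((s / 4 : ℝ) * Complex.I) * φ j s with hIdef
  set Θ := ∑ j, ∫ s, M j s with hΘ
  set a₀ := ∑ j ∈ Finset.univ.filter fun j => γ j = 0, (I j).re with ha₀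
  set g := a₀ - Θ with hg
  have hg0 : 0 < g := sub_pos.2 h.pos
  set p : ℝ := (Fintype.card D : ℝ) with hp
  have hp0 : 0 ≤ p := Nat.cast_nonneg _
  set η := g / (16 * (p + 1)) with hη
  have hη0 : 0 < η := by positivity
  have hηp : 2 * p * η ≤ g / 8 := by
    have : η * (16 * (p + 1)) = g := div_mul_cancel₀ _ (by positivity)
    nlinarith
  set K := ∑ j, ‖I j‖ * (16 / |γ j|) with hK
  have hK0 : 0 ≤ K := Finset.sum_nonneg fun j _ => by positivity
  obtain ⟨pa, hpa, pb, hpb, hab⟩ := eventually_prod_iff.1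
    (eventually_all.2 fun j => hI _ _ _ _ _ _ (h.prof j) h.θ_pos h.θ_le η hη0)
  have hKa : ∀ᶠ a : ℝ in atTop, K * Real.exp (-a / 2) ≤ g / 8 := by
    have h1 : Tendsto (fun a : ℝ => K * Real.exp (-a / 2)) atTop (𝓝 (K * 0)) :=
      (Real.tendsto_exp_atBot.comp (tendsto_neg_atTop_atBot.atBot_div_const two_pos)).const_mul K
    exact h1.eventually_le_const (by rw [mul_zero]; linarith)
  obtain ⟨a₁, ha₁⟩ := eventually_atTop.1 hpa
  obtain ⟨a, ha1, ha2, ha3⟩ :=
    (hKa.and ((eventually_ge_atTop a₁).and (eventually_ge_atTop x₀))).exists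
  set Dd : ℂ → ℂ := fun w => Real.exp w.re * ((chi w.im : ℂ) - (3 / 4 * w.im : ℝ) * Complex.I) *
    Real.exp (-hh w / 4) * ∑ j, Φ j w with hDd
  have hDc : ContinuousOn Dd (QQ x₀ θ) :=
    ContinuousOn.mul (Continuous.continuousOn (by unfold hh chi; fun_prop)) h.cont
  obtain ⟨C, hC⟩ := box h.θ_pos h.θ_le h.der (D := Dd) h.dbar hDc h.rate ha3
  have e1 : ∀ᶠ ε : ℝ in 𝓝[>] 0, ε * C < g / 8 := nhdsWithin_le_nhds
    (ContinuousAt.eventually_lt (by fun_prop) continuousAt_const (by simp; linarith))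
  have e2 : ∀ᶠ ε : ℝ in 𝓝[>] 0, 4 * K * √ε < g / 8 := nhdsWithin_le_nhds
    (ContinuousAt.eventually_lt (by fun_prop) continuousAt_const (by simp; linarith))
  have e3 : ∀ᶠ ε : ℝ in 𝓝[>] 0, 3 / 4 < Real.exp (-ε * Real.exp a) := nhdsWithin_le_nhds
    (ContinuousAt.eventually_lt continuousAt_const (by fun_prop) (by simp; norm_num))
  have e4 : ∀ᶠ ε : ℝ in 𝓝[>] 0, ε < 1 / 8 := nhdsWithin_le_nhds (eventually_lt_nhds (by norm_num))
  obtain ⟨ε, ⟨⟨c1, c2⟩, c3, c4⟩, c5, hε⟩ :=
    (((e1.and e2).and (e3.and e4)).and (hpb.and self_mem_nhdsWithin)).exists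
  replace hε : 0 < ε := hε
  have e5 : ∀ᶠ b : ℝ in atTop, Real.exp (-ε * Real.exp b) ≤ 1 / 8 :=
    (Real.tendsto_exp_atBot.comp (Real.tendsto_exp_atTop.const_mul_atTop_of_neg
      (neg_lt_zero.2 hε))).eventually_le_const (by norm_num)
  obtain ⟨b, ⟨d1, d2⟩, hb⟩ :=
    (((hC ε hε (by linarith)).and e5).and (eventually_ge_atTop a)).exists
  -- the pieces
  set A : ℝ → ℂ := fun x => ∫ y : ℝ in (-θ)..θ,
    Dd (x + y * Complex.I) * psi ε (x + y * Complex.I) with hA
  set o : D → ℝ → ℂ := fun j x => ((Real.exp x * Real.exp (-ε * Real.exp x) : ℝ) : ℂ) *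
    Complex.exp (-((1 / 4 - ε) * γ j * Real.exp (x / 2) : ℝ) * Complex.I) with ho
  set c : D → ℂ := fun j => (Real.exp (-γ j ^ 2 / 32) : ℝ) * I j with hc
  have hAc : ContinuousOn A (Ici x₀) := cont_inner (F := fun w => Dd w * psi ε w) h.θ_pos
    (hDc.mul (Continuous.continuousOn (by unfold psi; fun_prop)))
  have hAi : IntervalIntegrable A volume a b := by
    refine (hAc.mono ?_).intervalIntegrable
    rw [uIcc_of_le hb]
    exact fun x hx => ha3.trans hx.1
  have hoi : ∀ j, IntervalIntegrable (fun x => c j * o j x) volume a b := fun j =>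
    Continuous.intervalIntegrable (by simp only [ho]; fun_prop) _ _
  have hsi : IntervalIntegrable (fun x => ∑ j, c j * o j x) volume a b :=
    Continuous.intervalIntegrable (by simp only [ho]; fun_prop) _ _
  have hpt : ∀ x, a ≤ x → ‖A x - ∑ j, c j * o j x‖ ≤ Θ * (Real.exp x * Real.exp (-ε * Real.exp x)) +
      p * η * (Real.exp x * Real.exp (-(ε / 2) * Real.exp x)) := by
    intro x hx
    have h1 : A x = ∑ j, ∫ y : ℝ in (-θ)..θ,
        wt0 ε (x + y * Complex.I) * Φ j (x + y * Complex.I) := by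
      rw [← intervalIntegral.integral_finset_sum]
      · refine integral_congr fun y _ => ?_
        simp only [hDd, wt0, psi]
        rw [← Finset.mul_sum]
        ring
      · intro j _
        refine ContinuousOn.intervalIntegrable ?_
        rw [uIcc_of_le (by linarith [h.θ_pos])]
        exact ContinuousOn.mul (Continuous.continuousOn (by unfold wt0 hh chi; fun_prop))
          ((h.prof j).cont x (ha3.trans hx))
    rw [h1, ← Finset.sum_sub_distrib]
    refine (norm_sum_le _ _).trans ((Finset.sum_le_sum fun j _ => (le_of_eq ?_).trans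
      (hab (ha₁ x (ha2.trans hx)) c5 j)).trans (le_of_eq ?_))
    · congr 2
      simp only [hc, ho, hIdef]
      push_cast
      ring
    · simp only [← Finset.mul_sum, Finset.sum_add_distrib, Finset.sum_const, Finset.card_univ,
        nsmul_eq_mul, ← hΘ, ← hp]
      rw [show -ε * Real.exp x / 2 = -(ε / 2) * Real.exp x by ring]
      ring
  set J := (Real.exp (-ε * Real.exp a) - Real.exp (-ε * Real.exp b)) / ε with hJ
  have h2 : ‖(∫ x in a..b, A x) - ∑ j, c j * ∫ x in a..b, o j x‖ ≤ Θ * J + p * η * (1 / (ε / 2)) := by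
    have h3 : ∑ j, c j * ∫ x in a..b, o j x = ∫ x in a..b, ∑ j, c j * o j x := by
      rw [intervalIntegral.integral_finset_sum fun j _ => hoi j]
      simp only [intervalIntegral.integral_const_mul]
    rw [h3, ← integral_sub hAi hsi]
    refine (norm_integral_le_of_norm_le hb (Eventually.of_forall fun x hx => hpt x hx.1.le)
      (Continuous.intervalIntegrable (by fun_prop) _ _)).trans ?_
    rw [integral_add (Continuous.intervalIntegrable (by fun_prop) _ _)
      (Continuous.intervalIntegrable (by fun_prop) _ _), intervalIntegral.integral_const_mul Θ,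
      intervalIntegral.integral_const_mul (p * η), int_ee hε.ne']
    exact add_le_add le_rfl (mul_le_mul_of_nonneg_left (int_ee_le (half_pos hε) a b)
      (mul_nonneg hp0 hη0.le))
  have h4 : ∀ j, (if γ j = 0 then (I j).re else 0) * (ε * J) -
      ‖I j‖ * (16 / |γ j|) * (4 * √ε + Real.exp (-a / 2)) ≤
        ε * (c j * ∫ x in a..b, o j x).re := by
    intro j
    split_ifs with hγ
    · have h5 : ∫ x in a..b, o j x = (J : ℂ) := by
        simp only [ho, hγ, mul_zero, zero_mul, Complex.ofReal_zero, neg_zero, Complex.exp_zero,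
          mul_one]
        rw [intervalIntegral.integral_ofReal, int_ee hε.ne']
      rw [h5]
      simp only [hc, hγ, Complex.re_mul_ofReal, Complex.re_ofReal_mul]
      simp
      nlinarith
    · have hγ0 : 0 < |γ j| := abs_pos.2 hγ
      have h5 := osc (β := (1 / 4 - ε) * γ j) (mul_ne_zero (by linarith) hγ) hε hb
      have h6 : 2 / |(1 / 4 - ε) * γ j| ≤ 16 / |γ j| := by
        rw [abs_mul, abs_of_pos (by linarith : 0 < 1 / 4 - ε),
          div_le_div_iff₀ (mul_pos (by linarith) hγ0) hγ0]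
        nlinarith
      have h7 : ‖c j‖ ≤ ‖I j‖ := by
        simp only [hc]
        rw [norm_mul, Complex.norm_real, Real.norm_of_nonneg (Real.exp_pos _).le]
        exact mul_le_of_le_one_left (norm_nonneg _)
          (Real.exp_le_one_iff.2 (by nlinarith [sq_nonneg (γ j)]))
      have h8 := h5.trans (mul_le_mul_of_nonneg_right h6 (by positivity))
      have h9 := mul_le_mul h7 h8 (by positivity) (norm_nonneg _)
      have h10 := (abs_le.1 (Complex.abs_re_le_norm (c j * ∫ x in a..b, o j x))).1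
      rw [norm_mul] at h10
      have h11 := mul_le_mul_of_nonneg_left h10 hε.le
      simp only [ho] at h11 ⊢
      linarith
  have h5 := Finset.sum_le_sum fun j (_ : j ∈ Finset.univ) => h4 j
  rw [Finset.sum_sub_distrib, ← Finset.sum_mul, ← Finset.sum_mul, ← Finset.sum_filter, ← ha₀, ← hK,
    ← Finset.mul_sum, ← Complex.re_sum] at h5
  have h6 := (abs_le.1 ((Complex.abs_re_le_norm _).trans h2)).1
  rw [Complex.sub_re] at h6
  have h7 := (abs_le.1 ((Complex.abs_re_le_norm _).trans d1)).2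
  have h8 : ε * (p * η * (1 / (ε / 2))) = 2 * p * η := by field_simp
  have h9 : 5 / 8 ≤ ε * J := by
    rw [hJ, mul_div_cancel₀ _ hε.ne']
    linarith
  have h10 := mul_le_mul_of_nonneg_left (show (∑ j, c j * ∫ x in a..b, o j x).re ≤
    C + (Θ * J + p * η * (1 / (ε / 2))) by linarith) hε.le
  have h11 := mul_le_mul_of_nonneg_left h9 hg0.le
  nlinarith

end Crest.Agent.N250.St

end
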